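import Vale.Agent.P247.H931.S1.Sta

/-!
# P247, S1: quasi-periodic extension of the fields of the flat model (package `EXT`)
-/

open scoped ContDiff Topology
open Set MeasureTheory Filter Metric Complex

noncomputable section

namespace Vale.Agent.P247.H43

open Vale.Agent.P247.H74 Vale.Agent.P247.H574 Vale.Agent.P247.H647 Vale.Agent.P247.H957
  Vale.Agent.P247.H931.S1

/-- integer part -/
def fl (x : R4) : Fin 4 → ℤ := fun i => ⌊x i⌋

/-- fractional part -/
def frc (x : R4) : R4 := fun i => Int.fract (x i)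

/-- the transition function -/
def ph (k : Fin 4 → ℤ) (x : R4) : ℂ := exp (2 * Real.pi * I * k 0 * x 1)

/-- quasi-periodic extension from the half open cube -/
def ext (f : R4 → ℂ) (x : R4) : ℂ := ph (fl x) x * f (frc x)

/-- half open cells -/
def cell (k : Fin 4 → ℤ) : Set R4 := {x | fl x = k}

theorem tr_fl (x : R4) : tr (fl x) (frc x) = x := by
  funext i
  simp [tr, fl, frc]

theorem fl_tr (k : Fin 4 → ℤ) (x : R4) : fl (tr k x) = fl x + k := by
  funext i
  simp [tr, fl]

theorem frc_tr (k : Fin 4 → ℤ) (x : R4) : frc (tr k x) = frc x := by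
  funext i
  simp [tr, frc]

theorem fl_of_cell0 {x : R4} (h : x ∈ cell 0) : frc x = x := by
  have := tr_fl x
  have h0 : fl x = 0 := h
  rw [h0] at this
  conv_rhs => rw [← this]
  funext i
  simp [tr]

theorem ph_tr (k l : Fin 4 → ℤ) (x : R4) : ph k (tr l x) = ph k x := by
  unfold ph tr
  rw [Complex.exp_eq_exp_iff_exists_int]
  refine ⟨k 0 * l 1, ?_⟩
  push_cast
  ring

theorem ph_add (k l : Fin 4 → ℤ) (x : R4) : ph (k + l) x = ph k x * ph l x := by
  unfold ph
  rw [← Complex.exp_add]
  congr 1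
  push_cast [Pi.add_apply]
  ring

theorem ph_zero (x : R4) : ph 0 x = 1 := by
  simp [ph]

theorem norm_ph (k : Fin 4 → ℤ) (x : R4) : ‖ph k x‖ = 1 := by
  unfold ph
  rw [Complex.norm_exp]
  simp

theorem continuous_ph (k : Fin 4 → ℤ) : Continuous (ph k) := by
  unfold ph
  fun_prop

theorem ext_tr (f : R4 → ℂ) (k : Fin 4 → ℤ) (x : R4) : ext f (tr k x) = ph k x * ext f x := by
  unfold ext
  rw [fl_tr, frc_tr, ph_tr, ph_add]
  ring

theorem ext_QS (f : R4 → ℂ) : QS (ext f) := fun k x => by
  rw [ext_tr, smul_eq_mul]; rfl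

theorem ext_cell0 (f : R4 → ℂ) {x : R4} (h : x ∈ cell 0) : ext f x = f x := by
  have h0 : fl x = 0 := h
  unfold ext
  rw [fl_of_cell0 h, h0, ph_zero, one_mul]

/-- quasi-periodic functions are their own extensions -/
theorem ext_of_QS {f : R4 → ℂ} (hf : ∀ k x, f (tr k x) = ph k x * f x) (x : R4) : ext f x = f x := by
  have h := hf (fl x) (frc x)
  rw [tr_fl] at h
  unfold ext
  have h1 := ph_tr (fl x) (fl x) (frc x)
  rw [tr_fl] at h1
  rw [h1, h]

theorem measurable_fl : Measurable fl := measurable_pi_lambda _ fun i =>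
  Int.measurable_floor.comp (measurable_pi_apply i)

theorem measurable_frc : Measurable frc := measurable_pi_lambda _ fun i =>
  measurable_fract.comp (measurable_pi_apply i)

theorem measurableSet_cell (k : Fin 4 → ℤ) : MeasurableSet (cell k) :=
  measurable_fl (measurableSet_singleton k)

theorem cell_zero : cell 0 = Set.pi univ fun _ : Fin 4 => Ico (0 : ℝ) 1 := by
  ext x
  simp only [cell, mem_ofPred_eq, mem_univ_pi, mem_Ico, funext_iff, fl, Pi.zero_apply,
    Int.floor_eq_zero_iff]

theorem restrict_cell0 : volume.restrict (cell 0) = mQ := by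
  rw [cell_zero]
  exact Measure.restrict_congr_set (Measure.univ_pi_Ico_ae_eq_Icc (f := (0 : R4)) (g := (1 : R4)))

theorem ae_cell0 : ∀ᵐ x ∂mQ, x ∈ cell 0 := by
  rw [← restrict_cell0]
  exact ae_restrict_mem (measurableSet_cell 0)

theorem mp_tr (k : Fin 4 → ℤ) : MeasurePreserving (tr k) volume volume :=
  measurePreserving_add_right volume (fun i => (k i : ℝ))

theorem emb_tr (k : Fin 4 → ℤ) : MeasurableEmbedding (tr k) :=
  measurableEmbedding_addRight (fun i => (k i : ℝ) : R4)

theorem preimage_cell (k : Fin 4 → ℤ) : tr k ⁻¹' cell k = cell 0 := by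
  ext x
  simp [cell, fl_tr]

theorem mp_cell (k : Fin 4 → ℤ) :
    MeasurePreserving (tr k) mQ (volume.restrict (cell k)) := by
  have h := (mp_tr k).restrict_preimage (measurableSet_cell k)
  rwa [preimage_cell, restrict_cell0] at h

theorem iUnion_cell : ⋃ k, cell k = univ := by
  ext x
  simp [cell]

/-- the extension depends on the class of the function only -/
theorem ext_congr {f g : R4 → ℂ} (h : f =ᵐ[mQ] g) : ext f =ᵐ[volume] ext g := by
  have h1 : ∀ᵐ x ∂(volume.restrict (⋃ k, cell k)), ext f x = ext g x := by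
    rw [ae_restrict_iUnion_iff]
    intro k
    rw [← (mp_cell k).map_eq, (emb_tr k).ae_map_iff]
    filter_upwards [h, ae_cell0] with y hy hy0
    rw [ext_tr, ext_tr, ext_cell0 f hy0, ext_cell0 g hy0, hy]
  rwa [iUnion_cell, Measure.restrict_univ] at h1

/-- compact sets are covered by finitely many cells -/
theorem exists_fin (K : Set R4) (hK : IsCompact K) : ∃ S : Finset (Fin 4 → ℤ),
    K ⊆ ⋃ k ∈ S, cell k := by
  obtain ⟨R, hR⟩ := hK.isBounded.exists_norm_le
  refine ⟨Finset.Icc (fun _ => ⌊-R⌋) (fun _ => ⌊R⌋), fun x hx => ?_⟩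
  simp only [mem_iUnion]
  refine ⟨fl x, ?_, rfl⟩
  rw [Finset.mem_Icc]
  have h : ∀ i, |x i| ≤ R := fun i => (norm_le_pi_norm x i).trans (hR x hx)
  exact ⟨fun i => Int.floor_mono (abs_le.1 (h i)).1, fun i => Int.floor_mono (abs_le.1 (h i)).2⟩

theorem measurable_ext {f : R4 → ℂ} (hf : Measurable f) : Measurable (ext f) := by
  unfold ext
  refine Measurable.mul ?_ (hf.comp measurable_frc)
  unfold ph
  refine Complex.measurable_exp.comp ?_
  have h1 : Measurable fun x : R4 => ((fl x 0 : ℤ) : ℂ) :=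
    (measurable_from_top (f := fun n : ℤ => (n : ℂ))).comp
      ((measurable_pi_apply 0).comp measurable_fl)
  have h2 : Measurable fun x : R4 => ((x 1 : ℝ) : ℂ) :=
    Complex.measurable_ofReal.comp (measurable_pi_apply 1)
  exact (h1.const_mul _).mul h2

theorem norm_ext_tr (f : R4 → ℂ) (k : Fin 4 → ℤ) (x : R4) : ‖ext f (tr k x)‖ = ‖ext f x‖ := by
  rw [ext_tr, norm_mul, norm_ph, one_mul]

theorem ext_locL2 {f : R4 → ℂ} (hm : Measurable f) (hf : MemLp f 2 mQ) : LocL2 (ext f) := by
  intro K hK
  have hme : Measurable (ext f) := measurable_ext hm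
  rw [memLp_two_iff_integrable_sq_norm hme.aestronglyMeasurable]
  obtain ⟨S, hS⟩ := exists_fin K hK
  refine IntegrableOn.mono_set (t := ⋃ k ∈ S, cell k) ?_ hS
  rw [integrableOn_finset_iUnion]
  intro k _
  have h1 : Integrable (fun x => ‖ext f x‖ ^ 2) (volume.restrict (cell k)) ↔
      Integrable ((fun x => ‖ext f x‖ ^ 2) ∘ tr k) mQ :=
    ((mp_cell k).integrable_comp_emb (emb_tr k)).symm
  unfold IntegrableOn
  rw [h1]
  have h2 := (memLp_two_iff_integrable_sq_norm hm.aestronglyMeasurable).1 hf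
  refine h2.congr ?_
  filter_upwards [ae_cell0] with y hy
  simp only [Function.comp]
  rw [norm_ext_tr, ext_cell0 f hy]

theorem loc_int {f : R4 → ℂ} (h : LocL2 f) : LocallyIntegrable f volume := by
  rw [locallyIntegrable_iff]
  intro K hK
  have : IsFiniteMeasure (volume.restrict K) := ⟨by
    rw [Measure.restrict_apply_univ]; exact hK.measure_lt_top⟩
  exact (h K hK).integrable (by norm_num)

theorem meas_H (w : H) : Measurable (w : R4 → ℂ) := (Lp.stronglyMeasurable w).measurable

theorem locL2_H (w : H) : LocL2 (ext w) := ext_locL2 (meas_H w) (Lp.memLp w)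

instance fin_mQ : IsFiniteMeasure mQ := ⟨by
  rw [Measure.restrict_apply_univ]; exact isCompact_Icc.measure_lt_top⟩

/-- integration against an extension is a bounded functional -/
theorem exists_vec (θ : R4 → ℂ) (hc : Continuous θ) (hs : HasCompactSupport θ) :
    ∃ v : H, ∀ w : H, ∫ x, θ x * ext w x = inner ℂ v w := by
  obtain ⟨S, hS⟩ := exists_fin (tsupport θ) hs
  set Θ : R4 → ℂ := fun y => ∑ k ∈ S, θ (tr k y) * ph k y with hΘ
  have hΘc : Continuous Θ := by
    refine continuous_finsetSum _ fun k _ => (hc.comp ?_).mul (continuous_ph k)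
    exact continuous_pi fun i => (continuous_apply i).add continuous_const
  have hmem : MemLp (fun y => (starRingEnd ℂ) (Θ y)) 2 mQ := by
    obtain ⟨C, hC⟩ := (isCompact_Icc (a := (0 : R4)) (b := 1)).exists_bound_of_continuousOn
      hΘc.continuousOn
    refine MemLp.of_bound (C := C) (Complex.continuous_conj.comp hΘc).aestronglyMeasurable ?_
    filter_upwards [ae_restrict_mem (measurableSet_Icc)] with y hy
    simpa using hC y hy
  refine ⟨hmem.toLp, fun w => ?_⟩
  have hint : Integrable (fun x => θ x * ext w x) := by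
    have := (loc_int (locL2_H w)).integrable_smul_left_of_hasCompactSupport hc hs
    simpa only [smul_eq_mul] using this
  have h1 : ∫ x, θ x * ext w x = ∫ x in ⋃ k ∈ S, cell k, θ x * ext w x := by
    rw [setIntegral_eq_integral_of_forall_compl_eq_zero]
    intro x hx
    have : x ∉ tsupport θ := fun h => hx (hS h)
    rw [image_eq_zero_of_notMem_tsupport this, zero_mul]
  have hd : Pairwise (Function.onFun Disjoint cell) := by
    intro k l hkl
    refine Set.disjoint_left.2 fun x hk hl => hkl ?_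
    have h1 : fl x = k := hk
    have h2 : fl x = l := hl
    rw [← h1, h2]
  rw [h1, integral_biUnion_finset S (fun k _ => measurableSet_cell k)
    (fun k _ l _ hkl => hd hkl) fun k _ => hint.integrableOn]
  have h2 : ∀ k ∈ S, ∫ x in cell k, θ x * ext w x = ∫ y, θ (tr k y) * ph k y * w y ∂mQ := by
    intro k _
    rw [← (mp_cell k).integral_comp (emb_tr k)]
    refine integral_congr_ae ?_
    filter_upwards [ae_cell0] with y hy
    rw [ext_tr, ext_cell0 _ hy]
    ring
  rw [Finset.sum_congr rfl h2, ← integral_finsetSum, L2.inner_def]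
  · refine integral_congr_ae ?_
    filter_upwards [hmem.coeFn_toLp] with y hy
    rw [hy, hΘ, ← Finset.sum_mul]
    simp [mul_comm]
  · intro k _
    have hk : Integrable (fun x => θ x * ext w x) (volume.restrict (cell k)) := hint.integrableOn
    rw [← (mp_cell k).integrable_comp_emb (emb_tr k)] at hk
    refine hk.congr ?_
    filter_upwards [ae_cell0] with y hy
    simp only [Function.comp]
    rw [ext_tr, ext_cell0 _ hy]
    ring

theorem A0_tr (ξ : ℝ × ℝ) (k : Fin 4 → ℤ) (x : R4) : A0 ξ (tr k x) =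
    A0 ξ x + (2 * Real.pi * k 0) • (ContinuousLinearMap.proj 1 : R4 →L[ℝ] ℝ) := by
  unfold A0 tr
  ext u
  simp
  ring

theorem nb_tr (ξ : ℝ × ℝ) (j : Fin 4) {φ : R4 → ℂ} (h : Sec φ) (k : Fin 4 → ℤ) (x : R4) :
    nb ξ j φ (tr k x) = ph k x * nb ξ j φ x := by
  have hd : Differentiable ℝ φ := h.smooth.differentiable (by norm_num)
  have hph : HasFDerivAt (ph k) (ph k x • ((2 * Real.pi * I * k 0) •
      (Complex.ofRealCLM ∘L (ContinuousLinearMap.proj 1 : R4 →L[ℝ] ℝ)))) x := by
    unfold ph
    have h1 : HasFDerivAt (fun x : R4 => ((x 1 : ℝ) : ℂ))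
        (Complex.ofRealCLM ∘L (ContinuousLinearMap.proj 1 : R4 →L[ℝ] ℝ)) x :=
      (Complex.ofRealCLM ∘L (ContinuousLinearMap.proj 1 : R4 →L[ℝ] ℝ)).hasFDerivAt
    exact (h1.const_mul (2 * Real.pi * I * k 0)).cexp
  have e1 : fderiv ℝ φ (tr k x) = φ x • (ph k x • ((2 * Real.pi * I * k 0) •
      (Complex.ofRealCLM ∘L (ContinuousLinearMap.proj 1 : R4 →L[ℝ] ℝ)))) +
      ph k x • fderiv ℝ φ x := by
    have h1 : HasFDerivAt (fun y => φ (tr k y)) (fderiv ℝ φ (tr k x)) x := by
      have h2 : HasFDerivAt (tr k) (ContinuousLinearMap.id ℝ R4) x :=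
        (hasFDerivAt_id x).add_const (fun i => (k i : ℝ))
      have h3 := (hd (tr k x)).hasFDerivAt.comp x h2
      rwa [ContinuousLinearMap.comp_id] at h3
    have h2 : HasFDerivAt (fun y => ph k y * φ y) (ph k x • fderiv ℝ φ x + φ x • (ph k x •
        ((2 * Real.pi * I * k 0) •
      (Complex.ofRealCLM ∘L (ContinuousLinearMap.proj 1 : R4 →L[ℝ] ℝ))))) x :=
      hph.mul (hd x).hasFDerivAt
    have h3 : (fun y => φ (tr k y)) = fun y => ph k y * φ y := by
      funext y
      exact h.per k y
    rw [h3] at h1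
    rw [h1.unique h2, add_comm]
  unfold nb nab
  rw [e1, A0_tr]
  have e2 : φ (tr k x) = ph k x * φ x := h.per k x
  rw [e2]
  simp only [add_apply, smul_apply,
    ContinuousLinearMap.comp_apply, Complex.ofRealCLM_apply, ContinuousLinearMap.proj_apply,
    smul_eq_mul]
  push_cast
  ring

theorem nb_contDiff (ξ : ℝ × ℝ) (j : Fin 4) {φ : R4 → ℂ} (h : Sec φ) : Continuous (nb ξ j φ) := by
  unfold nb nab
  have h1 : Continuous fun x => fderiv ℝ φ x (e j) :=
    (h.smooth.continuous_fderiv (by norm_num)).clm_apply continuous_const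
  have h2 : Continuous fun x => (A0 ξ x (e j) : ℝ) := by
    unfold A0
    simp only [sub_apply, smul_apply,
      ContinuousLinearMap.proj_apply, smul_eq_mul]
    fun_prop
  exact h1.sub ((continuous_const.mul (Complex.continuous_ofReal.comp h2)).mul
    h.smooth.continuous)

theorem continuous_A0 (ξ : ℝ × ℝ) (j : Fin 4) : Continuous fun x => A0 ξ x (e j) := by
  unfold A0
  simp only [sub_apply, smul_apply,
    ContinuousLinearMap.proj_apply, smul_eq_mul]
  fun_prop

/-- integration by parts for smooth sections -/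
theorem ibp (ξ : ℝ × ℝ) (j : Fin 4) {φ : R4 → ℂ} (h : Sec φ) {η : R4 → ℝ} (hη : ContDiff ℝ ∞ η)
    (hs : HasCompactSupport η) :
    (∫ x, (fderiv ℝ η x (e j) : ℂ) * φ x) + (∫ x, (η x : ℂ) * nb ξ j φ x) +
      ∫ x, ((η x : ℂ) * (I * (A0 ξ x (e j) : ℂ))) * φ x = 0 := by
  have hd : Differentiable ℝ φ := h.smooth.differentiable (by norm_num)
  have hηd : Differentiable ℝ η := hη.differentiable (by norm_num)
  have hη' : Continuous fun x => fderiv ℝ η x (e j) :=
    (hη.continuous_fderiv (by norm_num)).clm_apply continuous_const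
  have hφ' : Continuous fun x => fderiv ℝ φ x (e j) :=
    (h.smooth.continuous_fderiv (by norm_num)).clm_apply continuous_const
  have hs' : HasCompactSupport fun x => fderiv ℝ η x (e j) := by
    refine hs.fderiv (𝕜 := ℝ) |>.comp_left (g := fun L : R4 →L[ℝ] ℝ => L (e j)) ?_
    simp
  have i1 : Integrable fun x => fderiv ℝ η x (e j) • φ x :=
    (hη'.smul h.smooth.continuous).integrable_of_hasCompactSupport hs'.smul_right
  have i2 : Integrable fun x => η x • fderiv ℝ φ x (e j) :=
    (hη.continuous.smul hφ').integrable_of_hasCompactSupport hs.smul_right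
  have i3 : Integrable fun x => η x • φ x :=
    (hη.continuous.smul h.smooth.continuous).integrable_of_hasCompactSupport hs.smul_right
  have key := integral_smul_fderiv_eq_neg_fderiv_smul_of_integrable i1 i2 i3
    (fun x _ => hηd x) (fun x _ => hd x)
  have i4 : Integrable fun x => (η x : ℂ) * nb ξ j φ x := by
    refine Continuous.integrable_of_hasCompactSupport ?_ ?_
    · exact (Complex.continuous_ofReal.comp hη.continuous).mul (nb_contDiff ξ j h)
    · exact (hs.comp_left (g := fun t : ℝ => (t : ℂ)) (by simp)).mul_right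
  have i5 : Integrable fun x => ((η x : ℂ) * (I * (A0 ξ x (e j) : ℂ))) * φ x := by
    refine Continuous.integrable_of_hasCompactSupport ?_ ?_
    · exact ((Complex.continuous_ofReal.comp hη.continuous).mul (continuous_const.mul
        (Complex.continuous_ofReal.comp (continuous_A0 ξ j)))).mul h.smooth.continuous
    · exact (hs.comp_left (g := fun t : ℝ => (t : ℂ)) (by simp)).mul_right.mul_right
  rw [add_assoc, ← integral_add i4 i5]
  have e1 : (fun x => (η x : ℂ) * nb ξ j φ x + ((η x : ℂ) * (I * (A0 ξ x (e j) : ℂ))) * φ x) =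
      fun x => η x • fderiv ℝ φ x (e j) := by
    funext x
    unfold nb nab
    rw [Complex.real_smul]
    ring
  have e2 : (fun x => (fderiv ℝ η x (e j) : ℂ) * φ x) = fun x => fderiv ℝ η x (e j) • φ x := by
    funext x
    rw [Complex.real_smul]
  rw [e1, e2, key]
  ring

theorem EXT : H931.S1.EXT_statement := by
  intro J G hF ξ w
  refine ⟨ext (J ξ w), fun j => ext (G ξ j w), ?_, ?_, ext_QS _, fun j => ext_QS _, locL2_H _,
    fun j => locL2_H _, ?_⟩
  · filter_upwards [ae_cell0] with x hx
    rw [ext_cell0 _ hx]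
  · intro j
    filter_upwards [ae_cell0] with x hx
    rw [ext_cell0 _ hx]
  intro j η hη hs
  have hη' : Continuous fun x => fderiv ℝ η x (e j) :=
    (hη.continuous_fderiv (by norm_num)).clm_apply continuous_const
  have hs' : HasCompactSupport fun x => fderiv ℝ η x (e j) := by
    refine hs.fderiv (𝕜 := ℝ) |>.comp_left (g := fun L : R4 →L[ℝ] ℝ => L (e j)) ?_
    simp
  have c1 : Continuous fun x => ((fderiv ℝ η x (e j) : ℝ) : ℂ) :=
    Complex.continuous_ofReal.comp hη'
  have s1 : HasCompactSupport fun x => ((fderiv ℝ η x (e j) : ℝ) : ℂ) :=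
    hs'.comp_left (g := fun t : ℝ => (t : ℂ)) (by simp)
  have c2 : Continuous fun x => (η x : ℂ) := Complex.continuous_ofReal.comp hη.continuous
  have s2 : HasCompactSupport fun x => (η x : ℂ) :=
    hs.comp_left (g := fun t : ℝ => (t : ℂ)) (by simp)
  have c3 : Continuous fun x => (η x : ℂ) * (I * (A0 ξ x (e j) : ℂ)) :=
    c2.mul (continuous_const.mul (Complex.continuous_ofReal.comp (continuous_A0 ξ j)))
  have s3 : HasCompactSupport fun x => (η x : ℂ) * (I * (A0 ξ x (e j) : ℂ)) := s2.mul_right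
  obtain ⟨v1, h1⟩ := exists_vec _ c1 s1
  obtain ⟨v2, h2⟩ := exists_vec _ c2 s2
  obtain ⟨v3, h3⟩ := exists_vec _ c3 s3
  -- the identity holds on a dense set
  have hall : ∀ w : H, inner ℂ v1 (J ξ w) + inner ℂ v2 (G ξ j w) + inner ℂ v3 (J ξ w) = 0 := by
    have hcl : IsClosed {w : H | inner ℂ v1 (J ξ w) + inner ℂ v2 (G ξ j w) +
        inner ℂ v3 (J ξ w) = 0} := by
      refine isClosed_eq ?_ continuous_const
      exact ((continuous_const.inner (J ξ).continuous).add
        (continuous_const.inner (G ξ j).continuous)).add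
        (continuous_const.inner (J ξ).continuous)
    have hsub : {w : H | ∃ φ, Sec φ ∧ Rep (J ξ w) φ ∧ ∀ j, Rep (G ξ j w) (nb ξ j φ)} ⊆
        {w : H | inner ℂ v1 (J ξ w) + inner ℂ v2 (G ξ j w) + inner ℂ v3 (J ξ w) = 0} := by
      rintro w ⟨φ, hφ, hJ, hG⟩
      have a1 : ext (J ξ w) =ᵐ[volume] φ := by
        filter_upwards [ext_congr hJ] with x hx
        rw [hx]
        exact ext_of_QS hφ.per x
      have a2 : ext (G ξ j w) =ᵐ[volume] nb ξ j φ := by
        filter_upwards [ext_congr (hG j)] with x hx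
        rw [hx]
        exact ext_of_QS (nb_tr ξ j hφ) x
      rw [mem_ofPred_eq, ← h1, ← h2, ← h3]
      have b1 : ∫ x, ((fderiv ℝ η x (e j) : ℝ) : ℂ) * ext (J ξ w) x =
          ∫ x, ((fderiv ℝ η x (e j) : ℝ) : ℂ) * φ x := by
        refine integral_congr_ae ?_
        filter_upwards [a1] with x hx
        rw [hx]
      have b2 : ∫ x, (η x : ℂ) * ext (G ξ j w) x = ∫ x, (η x : ℂ) * nb ξ j φ x := by
        refine integral_congr_ae ?_
        filter_upwards [a2] with x hx
        rw [hx]
      have b3 : ∫ x, ((η x : ℂ) * (I * (A0 ξ x (e j) : ℂ))) * ext (J ξ w) x =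
          ∫ x, ((η x : ℂ) * (I * (A0 ξ x (e j) : ℂ))) * φ x := by
        refine integral_congr_ae ?_
        filter_upwards [a1] with x hx
        rw [hx]
      rw [b1, b2, b3]
      exact ibp ξ j hφ hη hs
    intro w
    exact hcl.closure_subset_iff.2 hsub (hF.dense ξ w)
  have hw := hall w
  rw [← h1, ← h2, ← h3] at hw
  have j2 : Integrable fun x => (η x : ℂ) * ext (G ξ j w) x := by
    have := (loc_int (locL2_H (G ξ j w))).integrable_smul_left_of_hasCompactSupport c2 s2
    simpa only [smul_eq_mul] using this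
  have j3 : Integrable fun x => ((η x : ℂ) * (I * (A0 ξ x (e j) : ℂ))) * ext (J ξ w) x := by
    have := (loc_int (locL2_H (J ξ w))).integrable_smul_left_of_hasCompactSupport c3 s3
    simpa only [smul_eq_mul] using this
  rw [add_assoc, ← integral_add j2 j3] at hw
  have e1 : (fun x => (η x : ℂ) * ext (G ξ j w) x +
      ((η x : ℂ) * (I * (A0 ξ x (e j) : ℂ))) * ext (J ξ w) x) =
      fun x => η x • (ext (G ξ j w) x + I * (A0 ξ x (e j) : ℂ) * ext (J ξ w) x) := by
    funext x
    rw [Complex.real_smul]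
    ring
  have e2 : (fun x => (fderiv ℝ η x (e j) : ℂ) * ext (J ξ w) x) =
      fun x => fderiv ℝ η x (e j) • ext (J ξ w) x := by
    funext x
    rw [Complex.real_smul]
  rw [e1, e2] at hw
  exact eq_neg_of_add_eq_zero_left hw

end Vale.Agent.P247.H43
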